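import Vale.Agent.P011UX.Cur
import Vale.Agent.P011UT4.Defs
import Vale.Agent.P011UC.Rat
import Vale.Agent.P011UH.Cl

/-!
The exponential of a nilpotent element of the Lie algebra.
-/

set_option autoImplicit false
set_option linter.all false

namespace Vale.Agent.P011UX2

open Matrix Polynomial Vale.Agent.P011L Vale.Agent.P011UX Vale.Agent.P183CH
  Vale.Agent.P183CH.Chev Vale.Agent.P011U

variable {K : Type} [Field K] [CharZero K]

theorem exp_van {J : Type} [Fintype J] [DecidableEq J] {G : Subgroup (GL J K)} {A : Matrix J J K}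
    (hA : A ∈ P011UX.LE G) (hn : IsNilpotent A) (p : MvPolynomial (J × J) K) (hp : Van K G p) :
    ev (IsNilpotent.exp A) p = 0 := by
  obtain ⟨N, hN⟩ := hn
  have hN' : A ^ (N + 1) = 0 := by rw [pow_succ, hN, zero_mul]
  let Γ : Matrix J J K[X] :=
    of fun a b => ∑ i ∈ Finset.range (N + 1), monomial i ((i.factorial : K)⁻¹ * (A ^ i) a b)
  have e : ∀ s : K, Γ.map (aeval s : K[X] →ₐ[K] K) =
      ∑ i ∈ Finset.range (N + 1), ((i.factorial : K)⁻¹ * s ^ i) • A ^ i := fun s => by
    ext a b
    simp [Γ, Matrix.sum_apply, eval_finset_sum, mul_right_comm]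
  have h : Γ.map derivative = Γ * A.map C := by
    ext1 a b
    have : (Γ * A.map C) a b =
        ∑ i ∈ Finset.range (N + 1), monomial i ((i.factorial : K)⁻¹ * (A ^ (i + 1)) a b) := by
      simp only [Γ, Matrix.mul_apply, of_apply, map_apply, Finset.sum_mul, monomial_mul_C, pow_succ,
        Finset.mul_sum, map_sum, mul_assoc]
      exact Finset.sum_comm
    rw [this, Finset.sum_range_succ, hN', map_apply]
    simp only [Γ, of_apply, Finset.sum_range_succ' _ N, derivative_add, derivative_sum,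
      derivative_monomial]
    simp only [Nat.cast_zero, mul_zero, map_zero, Matrix.zero_apply, add_zero, Nat.add_sub_cancel]
    refine Finset.sum_congr rfl fun i _ => congrArg _ ?_
    have := Nat.cast_add_one_ne_zero (R := K) i
    rw [Nat.factorial_succ]
    push_cast
    field_simp
  have e1 : IsNilpotent.exp A = Γ.map (aeval (1 : K) : K[X] →ₐ[K] K) := by
    rw [e, IsNilpotent.exp_eq_sum hN']
    refine Finset.sum_congr rfl fun i _ => ?_
    rw [← Rat.cast_smul_eq_qsmul K]
    simp
  rw [e1, ← map_ev, cur0 h (fun s => by rwa [P011UX.map_C]) (fun p hp => ?_) p hp, map_zero]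
  rw [e, Finset.sum_range_succ']
  simpa using hp 1 (one_mem _)

variable {D : Chev}

theorem tv_le : P011UC.TV D K ≤ P011UX.LE (D.grp K) := Submodule.span_le.2 (by
  rintro M ⟨x, h0, h⟩
  choose p h1 h2 using h
  have e : ∀ s, (x s).1.1 = (of p).map (aeval s : K[X] →ₐ[K] K) := fun s =>
    Matrix.ext fun i j => by simpa using h1 i j s
  refine tan (Γ := of p) (fun s => ⟨_, (x s).2, e s⟩) 0 ?_
  rw [← e, h0]
  ext i j
  simp [h2, ← coeff_zero_eq_eval_zero, coeff_derivative])

theorem gg_le : P011UT4.gg D K ≤ P011UX.LE (D.grp K) := P011UC.lie_TV.trans tv_le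

omit [CharZero K] in
theorem cl_grp [Infinite K] (hD : SC D) : Cl (D.grp K) := fun g h => by
  obtain ⟨y, hy, e⟩ := (P011UH.cl D hD K K g.1).1 h
  exact (Units.ext e : y = g) ▸ hy

theorem exp : P011UT4.EXP := fun D hD K _ _ A hA hn => by
  obtain ⟨y, hy, e⟩ := (P011UH.cl D hD K K _).1 (exp_van (gg_le hA) hn)
  exact ⟨⟨y, hy⟩, e⟩

end Vale.Agent.P011UX2
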