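import Vale.Agent.P011UX2.Gl
import Vale.Agent.P011UI.Rep

/-!
Closed subsystems of type `A` give homomorphisms from the special linear group.
-/

set_option autoImplicit false
set_option linter.all false

namespace Vale.Agent.P011UX2

open Matrix Vale.Agent.P011L Vale.Agent.P183CH Vale.Agent.P183CH.Chev Vale.Agent.P011U
  Vale.Agent.P011UHB Vale.Agent.P011UP Vale.Agent.P011UI

attribute [local instance 100] LieRing.ofAssociativeRing

theorem dp_smul {n : ℕ} {E : ℕ → Matrix (Fin n) (Fin n) ℤ} (h : DP E) (c : ℤ) :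
    DP fun j => c ^ j • E j :=
  ⟨fun j => by rw [pow_one, smul_pow, h.pow, smul_comm], by rw [smul_pow, h.nil, smul_zero]⟩

theorem exU_eq {n : ℕ} {E E' : ℕ → Matrix (Fin n) (Fin n) ℤ} (h : DP E) (h' : DP E') {c : ℤ}
    (e : E' 1 = c • E 1) {k : Type} [CommRing k] (t : k) : h'.exU t = h.exU ((c : k) * t) :=
  Units.ext (show ex E' t = ex E _ from Finset.sum_congr rfl fun m _ => by
    rw [fact_cancel (m := m) (M := E' m) (N := c ^ m • E m)
      (by rw [← h'.pow, e, smul_pow, h.pow, smul_comm]), map_zsmul, mul_pow, mul_comm, mul_smul,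
      ← Int.cast_smul_eq_zsmul k, Int.cast_pow])

variable {D : Chev} {K : Type} [Field K] {γ : D.Q}

theorem co_val (y : Fin D.r → ℤ) (t : Kˣ) :
    (co (GG_ok (D := D)) y t).1 = dgU (fun a => ∑ m, y m * D.μ m a) t :=
  Units.ext ((hT_val fun i => t ^ y i).trans (congrArg diagonal (funext fun a => by
    simp only [← _root_.zpow_mul, prod_zpow])))

theorem hm_sum (y : Fin D.r → ℤ) : ∑ m, y m • D.hm m = diagonal fun a => ∑ m, y m * D.μ m a := by
  ext a b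
  simp [-zsmul_eq_mul, hm, Matrix.sum_apply, diagonal_apply]

theorem int_of (h : D.IsRt γ) {M : D.Mat ℤ} (h1 : ct ℂ M ∈ D.g) (h2 : M ∈ D.Dg ℤ γ) :
    ∃ z : ℤ, M = z • D.EE γ 1 :=
  (h.rh.one _ h1 (Dg.ct h2)).elim fun _ e => h.rh.prim.int e

theorem dg_mem (h : D.IsRt γ) {M N : D.Mat ℤ} (h1 : ct ℂ M ∈ D.g) (h2 : M ∈ D.Dg ℤ γ)
    (h3 : ct ℂ N ∈ D.g) (h4 : N ∈ D.Dg ℤ (-γ)) {w : Fin D.n → ℤ} (e : ⁅M, N⁆ = diagonal w)
    (t : Kˣ) : dgU w t ∈ D.grp K := by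
  obtain ⟨a, rfl⟩ := int_of h h1 h2
  obtain ⟨b, rfl⟩ := int_of h.neg h3 h4
  obtain ⟨y, -, h5⟩ := cor γ (mem_Φ.2 h)
  rw [zsmul_lie, lie_zsmul, h5, smul_smul, Finset.smul_sum] at e
  simp only [smul_smul, hm_sum] at e
  exact diagonal_injective e ▸ co_val (fun m => a * b * y m) t ▸ Subtype.prop _

variable {m : ℕ} (P : Rp D m)

theorem mem_gr {x : GL (Fin D.n) K × GL (Fin m) K} (h : Rp.bU K x ∈ P.sum.grp K) : x ∈ P.gr K := by
  obtain ⟨y, hy, e⟩ := (P.map_gr K).ge h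
  have e : bd K (y.1.1, y.2.1) = bd K (x.1.1, x.2.1) := congrArg Units.val e
  exact (Prod.ext (Units.ext (Matrix.ext fun a b => (bd_fst (_, y.2.1) a b).symm.trans
    ((congrFun (congrFun e _) _).trans (bd_fst _ a b)))) (Units.ext (Matrix.ext fun a b =>
      (bd_snd (y.1.1, _) a b).symm.trans ((congrFun (congrFun e _) _).trans (bd_snd _ a b)))) :
        y = x) ▸ hy

theorem sum_dg {z : D.L} {M : D.Mat ℤ} {N : Matrix (Fin m) (Fin m) ℤ} (h1 : D.φ z = ct ℂ M)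
    (h2 : P.φ z = ct ℂ N) (hz : ∀ j, ⁅D.b.h j, z⁆ = (γ ᵥ* D.A) j • z) :
    ct ℂ (bd ℤ (M, N)) ∈ P.sum.g ∧ bd ℤ (M, N) ∈ P.sum.Dg ℤ γ := by
  have e : P.sum.φ z = ct ℂ (bd ℤ (M, N)) := by rw [bd_ct, ← h1, ← h2]; rfl
  have k : ∀ X : P.sum.Mat ℤ, P.sum.φ z = ct ℂ X → X ∈ P.sum.Dg ℤ γ := fun X e =>
    dg_of (D := P.sum) fun j => ct_inj (k := ℂ) (by
      rw [ct_lie, map_zsmul, ← φ_h, ← e]
      exact (φ_lie (D := P.sum) _ z).symm.trans ((congrArg _ (hz j)).trans (map_zsmul _ _ _)))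
  exact ⟨⟨z, e⟩, k _ e⟩

theorem x_gr (h : P.sum.IsRt γ) {E : ℕ → D.Mat ℤ} {E' : ℕ → Matrix (Fin m) (Fin m) ℤ} (h1 : DP E)
    (h2 : DP E') (h3 : ct ℂ (bd ℤ (E 1, E' 1)) ∈ P.sum.g ∧ bd ℤ (E 1, E' 1) ∈ P.sum.Dg ℤ γ) (t : K) :
    (h1.exU t, h2.exU t) ∈ P.gr K := by
  obtain ⟨a, e⟩ := int_of h h3.1 h3.2
  have h4 : DP fun j => bd ℤ (E j, E' j) := ⟨fun j => by
    rw [← map_pow, ← map_nsmul, Prod.pow_mk, h1.pow, h2.pow]; rfl, pow_card (Dg.nil h3.2 h.1)⟩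
  refine mem_gr P ((congrArg (· ∈ P.sum.grp K) ?_).mp (h.rh.x K (a * t)))
  exact (exU_eq h.rh.dp h4 e t).symm.trans (Units.ext (ex_bd h1 h2 t))

theorem bd_dg {n m : ℕ} {R : Type} [CommRing R] (v : Fin n → R) (w : Fin m → R) :
    bd R (diagonal v, diagonal w) = diagonal (Sum.elim v w ∘ finSumFinEquiv.symm) := by
  rw [bd_val, fromBlocks_diagonal, submatrix_diagonal_equiv]

theorem h_gr (h : P.sum.IsRt γ) {M M' : D.Mat ℤ} {N N' : Matrix (Fin m) (Fin m) ℤ}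
    (h1 : ct ℂ (bd ℤ (M, N)) ∈ P.sum.g ∧ bd ℤ (M, N) ∈ P.sum.Dg ℤ γ)
    (h2 : ct ℂ (bd ℤ (M', N')) ∈ P.sum.g ∧ bd ℤ (M', N') ∈ P.sum.Dg ℤ (-γ)) {v w}
    (e : ⁅M, M'⁆ = diagonal v) (e' : ⁅N, N'⁆ = diagonal w) (t : Kˣ) :
    (dgU v t, dgU w t) ∈ P.gr K := by
  have := dg_mem h h1.1 h1.2 h2.1 h2.2 (w := Sum.elim v w ∘ finSumFinEquiv.symm) (by
    refine Eq.trans (?_ : bd ℤ (M, N) * bd ℤ (M', N') - bd ℤ (M', N') * bd ℤ (M, N) = _) (bd_dg v w)
    rw [← e, ← e', ← map_mul, ← map_mul, ← map_sub]; rfl) t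
  refine mem_gr P ((congrArg (· ∈ P.sum.grp K) (Units.ext ?_)).mp this)
  refine Eq.trans (congrArg diagonal (funext fun a => ?_)) (bd_dg _ _).symm
  simp only [Function.comp]
  cases finSumFinEquiv.symm a <;> rfl

theorem gr_gm (σ : K →+* K) : P.gr K ≤ (P.gr K).comap ((gm σ).prodMap (gm σ)) :=
  (Subgroup.closure_le _).2 (by
    rintro _ ⟨i, t, rfl | rfl⟩
    · exact Subgroup.subset_closure ⟨i, σ t, Or.inl (Prod.ext (gm_exU _ (dp_e i) _)
        (gm_exU _ (P.dpe i) _))⟩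
    · exact Subgroup.subset_closure ⟨i, σ t, Or.inr (Prod.ext (gm_exU _ (dp_f i) _)
        (gm_exU _ (P.dpf i) _))⟩)

variable (K) in
theorem rep' (hD : SC D) : ∃ f : D.grp K →* GL (Fin m) K, ∀ g y, (g.1, y) ∈ P.gr K ↔ f g = y := by
  choose p hp using P.gr_pol K hD
  have h1 : ∀ g : D.grp K, ∃ y, (g.1, y) ∈ P.gr K := fun g => by
    obtain ⟨x, hx, e⟩ := (P.map_fst K).ge g.2
    exact ⟨x.2, e ▸ hx⟩
  have h2 : ∀ {g y y'}, (g, y) ∈ P.gr K → (g, y') ∈ P.gr K → y = y' := fun h h' =>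
    Units.ext (Matrix.ext fun a b => (hp a b _ h).trans (hp a b _ h').symm)
  choose f hf using h1
  exact ⟨MonoidHom.mk' f fun g g' => h2 (hf _) (mul_mem (hf g) (hf g')),
    fun g y => ⟨h2 (hf g), fun e => e ▸ hf g⟩⟩

theorem dat_deg {n : ℕ} (hn : 0 < n) (p q : Fin (n + 1)) :
    ∃ γ : (dat hn).Q, ∀ j, (γ ᵥ* (dat hn).A) j = mu j p - mu j q := by
  have : ∀ p : Fin (n + 1), ∃ γ : (dat hn).Q, ∀ j, (γ ᵥ* (dat hn).A) j = mu j 0 - mu j p := fun p => by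
    induction p using Fin.induction with
    | zero => exact ⟨0, fun j => (congrFun (zero_vecMul _) j).trans (sub_self _).symm⟩
    | succ i ih =>
      obtain ⟨γ, h⟩ := ih
      exact ⟨γ + (dat hn).α i, fun j => by
        rw [add_vecMul, Pi.add_apply, h]
        exact (congrArg _ (α_pr (D := dat hn) i j)).trans (sub_add_sub_cancel _ _ _)⟩
  obtain ⟨γ, h⟩ := this p
  obtain ⟨δ, h'⟩ := this q
  exact ⟨δ - γ, fun j => by rw [sub_vecMul, Pi.sub_apply, h, h']; ring⟩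

theorem mu_inj {n : ℕ} {p q : Fin (n + 1)} (h : ∀ j, mu j p = mu j q) : p = q := by
  have k : ∀ (i : Fin n) a, mu i i.castSucc = mu i a → i.castSucc = a := fun i a e => by
    simp only [mu, cs i, if_true, if_false] at e
    split_ifs at e <;> simp_all
  cases p using Fin.lastCases
  · cases q using Fin.lastCases
    exacts [rfl, (k _ _ (h _).symm).symm]
  · exact k _ _ (h _)

theorem lie_int {n : ℕ} {p q : Fin n} : ⁅single p q (1 : ℤ), single q p (1 : ℤ)⁆ =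
    diagonal fun a => (if a = p then 1 else 0) - if a = q then 1 else 0 := by
  ext a b
  simp only [Ring.lie_def, single_mul_single_same, Matrix.sub_apply, single_apply, diagonal_apply]
  grind

theorem dg_two {n : ℕ} {i j : Fin n} (c : i ≠ j) (t : Kˣ) :
    (dgU (fun a => (if a = i then 1 else 0) - if a = j then 1 else 0) t).1 =
      diagonal fun a => if a = i then (t : K) else if a = j then (t⁻¹ : Kˣ) else 1 :=
  congrArg diagonal (funext fun a => by split_ifs <;> simp_all)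

theorem slh : SLH := by
  intro D K _ l ρ hA
  obtain hl | ⟨n, rfl, hn⟩ : l ≤ 1 ∨ ∃ n, l = n + 1 ∧ 0 < n :=
    (le_or_gt l 1).imp_right fun c => ⟨l - 1, by omega, by omega⟩
  · have c : ∀ i j : Fin l, i = j := fun i j => by omega
    exact ⟨1, 1, fun _ _ => rfl, fun i j e => absurd (c i j) e, fun i j e => absurd (c i j) e,
      fun σ _ _ _ => (map_one _).symm⟩
  obtain ⟨φ, h1, e, h2, h3⟩ := exists_phi hA
  have rt : ∀ {p q}, p ≠ q → D.IsRt (ρ p q) := fun h => mem_Φ.1 (hA.mem _ _ h)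
  choose y hy hy' using fun p q (c : p ≠ q) => cor _ (hA.mem p q c)
  let Z : Fin (n + 1) → Fin (n + 1) → ℕ → D.Mat ℤ := fun p q j => (e p q : ℤ) ^ j • D.EE (ρ p q) j
  have dz : ∀ {p q}, p ≠ q → DP (Z p q) := fun c => dp_smul (rt c).rh.dp _
  have h4 : ∀ {p q}, p ≠ q → φ (single p q 1) = ct ℂ (Z p q 1) := fun c => by
    simp only [Z, pow_one, h3 _ _ c]
  have h5 : ∀ {p q} (c : p ≠ q), ⁅Z p q 1, Z q p 1⁆ = diagonal fun a => ∑ m, y p q c m * D.μ m a :=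
    fun {p q} c => by
      simp only [Z, pow_one]
      rw [zsmul_lie, lie_zsmul, smul_smul, h2 q p, ← Units.val_mul, Int.units_mul_self,
        ← as_neg hA p q, hy', hm_sum, Units.val_one, one_smul]
  have h6 : ∀ {p q} (c : p ≠ q) j, φ (single p q 1) ^ j = j.factorial • ct ℂ (Z p q j) :=
    fun c j => by rw [h4 c, ← map_pow, (dz c).pow, map_nsmul]
  let P : Rp (dat hn) D.n :=
    { φ := φ.comp (LL n).toSubmodule.subtype
      lie := fun u v => h1 u.1 v.1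
      μ := fun i a => ∑ m, y _ _ (cs i) m * D.μ m a
      E := fun i => Z i.castSucc i.succ
      F := fun i => Z i.succ i.castSucc
      h_eq := fun i : Fin n => (h1 (single _ _ 1) (single _ _ 1)).trans (by
        rw [h4 (cs i), h4 (cs i).symm, ← ct_lie, h5 (cs i), RingHom.mapMatrix_apply,
          diagonal_map (map_zero _)]
        rfl)
      e_pow := fun i => h6 (cs i)
      f_pow := fun i => h6 (cs i).symm }
  have h7 : ∀ {p q} (c : p ≠ q) (γ : (dat hn).Q), (∀ j, (γ ᵥ* (dat hn).A) j = mu j p - mu j q) →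
      ct ℂ (bd ℤ (ee p q 1, Z p q 1)) ∈ P.sum.g ∧ bd ℤ (ee p q 1, Z p q 1) ∈ P.sum.Dg ℤ γ :=
    fun c γ h => sum_dg P (z := el c) (ct_sg ℂ _ _).symm (h4 c) fun j => h j ▸ h_el j c
  have h8 : ∀ {p q} (c : p ≠ q) (γ : (dat hn).Q), (∀ j, (γ ᵥ* (dat hn).A) j = mu j p - mu j q) →
      P.sum.IsRt γ := fun {p q} c γ h => by
    refine ⟨fun e0 => c ?_, _, (h7 c γ h).1, fun e0 => ?_, Dg.ct (h7 c γ h).2⟩
    · exact mu_inj fun j => sub_eq_zero.1 (by rw [← h, e0]; exact congrFun (zero_vecMul _) j)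
    · have : _ = (0 : ℂ) := congrFun (congrFun e0 (p.castAdd _)) (q.castAdd _)
      rw [bd_ct, bd_fst] at this
      simpa [ee] using this
  have gx : ∀ {p q} (c : p ≠ q) (t : K), ((dp_ee c).exU t, (dz c).exU t) ∈ P.gr K :=
    fun {p q} c t => (dat_deg hn p q).elim fun γ h => x_gr P (h8 c γ h) _ _ (h7 c γ h) t
  have ex : ∀ {p q} (c : p ≠ q) (t : K), (dz c).exU t =
      ((GG D K).x (ρ p q) (((e p q : ℤ) : K) * t)).1 := fun c t =>
    (exU_eq _ _ (by simp only [Z, pow_one]) t).trans (GG_x (rt c) _).symm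
  obtain ⟨f, hf⟩ := rep' K P (dat_sc hn)
  have hg : P.gr K ≤ (D.grp K).comap (MonoidHom.snd _ _) := (Subgroup.closure_le _).2 (by
    rintro _ ⟨i, t, rfl | rfl⟩
    exacts [(congrArg (· ∈ D.grp K) (ex (cs i) t)).mpr (Subtype.prop _),
      (congrArg (· ∈ D.grp K) (ex (cs i).symm t)).mpr (Subtype.prop _)])
  let ι : SA K (n + 1) →* (dat hn).grp K := Subgroup.inclusion (dat_grp hn K).ge
  refine ⟨(f.codRestrict _ fun g => hg ((hf g _).2 rfl)).comp ι, e, h2, fun i j c u m hm => ?_,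
    fun i j c => ⟨y i j c, fun e0 => ?_, fun γ a h => cp_eq (hA.mem _ _ c) (hy i j c γ) h,
      fun t m hm => ?_⟩, fun σ m m' hm => ?_⟩
  · refine Subtype.ext (((hf _ _).1 ?_).trans (ex c u))
    exact (Units.ext ((ex_ee c u).trans hm.symm) : (dp_ee c).exU u = m.1) ▸ gx c u
  · simpa [e0, pw] using cp_eq (hA.mem _ _ c) (hy i j c _) (show Cp D.R _ _ 2 from rfl)
  · obtain ⟨γ, h⟩ := dat_deg hn i j
    refine Subtype.ext (((hf _ _).1 ?_).trans (co_val _ t).symm)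
    have := h_gr P (h8 c γ h) (h7 c γ h) (h7 c.symm (-γ) fun k => by
      rw [neg_vecMul, Pi.neg_apply, h, neg_sub]) lie_int (h5 c) t
    exact (congrArg (fun g => (g, _) ∈ P.gr K) (Units.ext ((dg_two c t).trans hm.symm))).mp this
  · refine Subtype.ext ((hf _ _).1 ?_)
    exact (Units.ext hm.symm : gm σ m.1 = m'.1) ▸ gr_gm P σ ((hf (ι m) _).2 rfl)

end Vale.Agent.P011UX2
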