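import Vale.Agent.P011UJ.Rec

/-!
The Chevalley datum of the special linear group.
-/

set_option autoImplicit false
set_option linter.all false

namespace Vale.Agent.P011UX2

open Matrix Vale.Agent.P011L Vale.Agent.P183CH Vale.Agent.P183CH.Chev Vale.Agent.P011U
  LieSubalgebra Set

attribute [local instance 100] LieRing.ofAssociativeRing

variable {n : ℕ} {p q r : Fin (n + 1)}

theorem lie_sg (h : p ≠ r) (q : Fin (n + 1)) :
    ⁅single p q (1 : ℂ), single q r (1 : ℂ)⁆ = single p r 1 := by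
  rw [Ring.lie_def, single_mul_single_same, single_mul_single_of_ne _ _ _ _ h.symm]
  simp

theorem lie_two (h : p ≠ q) (x : Matrix (Fin (n + 1)) (Fin (n + 1)) ℂ) :
    ⁅single p q (1 : ℂ), ⁅single p q (1 : ℂ), x⁆⁆ = (-2 * x q p) • single p q 1 := by
  have h1 : single p q (1 : ℂ) * single p q (1 : ℂ) = 0 := single_mul_single_of_ne _ _ _ _ h.symm _
  have h2 : single p q (1 : ℂ) * x * single p q (1 : ℂ) = x q p • single p q 1 := by
    rw [single_mul_mul_single]
    simp
  rw [Ring.lie_def, Ring.lie_def, mul_sub, sub_mul, ← mul_assoc, ← mul_assoc, h1, mul_assoc x, h1, h2]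
  simp only [zero_mul, mul_zero]
  module

theorem all_mem {W : Submodule ℂ (Matrix (Fin (n + 1)) (Fin (n + 1)) ℂ)}
    (hW : ∀ p q : Fin (n + 1), p ≠ q → ∀ x ∈ W, ⁅single p q (1 : ℂ), x⁆ ∈ W) {x} (hx : x ∈ W) (h0 : x ≠ 0)
    (ht : trace x = 0) (h : p ≠ q) : single p q 1 ∈ W := by
  have k1 : ∀ x ∈ W, ∀ a b, a ≠ b → x b a ≠ 0 → single a b 1 ∈ W := fun x hx a b c e =>
    (W.smul_mem_iff (mul_ne_zero (by norm_num) e)).1 (lie_two c x ▸ hW _ _ c _ (hW _ _ c _ hx))
  obtain ⟨a, b, c, e⟩ : ∃ a b, a ≠ b ∧ single a b 1 ∈ W := by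
    by_contra! hn
    have k2 : ∀ a b, a ≠ b → x a b = 0 := fun a b c => by_contra fun e =>
      hn _ _ c.symm (k1 x hx _ _ c.symm e)
    have k3 : ∀ a, x a a = x 0 0 := fun a => by_contra fun e => by
      have c : a ≠ 0 := fun c => e (by rw [c])
      refine hn _ _ c.symm (k1 _ (hW _ _ c x hx) _ _ c.symm ?_)
      simpa [Ring.lie_def, sub_eq_zero] using Ne.symm e
    have k4 : x 0 0 = 0 := by simpa [trace, k3, Nat.cast_add_one_ne_zero] using ht
    exact h0 (Matrix.ext fun a b => (eq_or_ne a b).elim (fun c => by rw [c, k3, k4]; rfl) (k2 a b))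
  have k5 : ∀ a b, single a b (1 : ℂ) ∈ W → ∀ p, p ≠ b → single p b 1 ∈ W := fun a b e p c => by
    rcases eq_or_ne p a with rfl | c'
    exacts [e, lie_sg c a ▸ hW _ _ c' _ e]
  have k6 : ∀ a b, a ≠ b → single a b (1 : ℂ) ∈ W → single b a 1 ∈ W := fun a b c e =>
    k1 _ e _ _ c.symm (by simp)
  have k7 : ∀ a b, a ≠ b → single a b (1 : ℂ) ∈ W → p ≠ b → single p q 1 ∈ W := fun a b c e c' =>
    k6 _ _ h.symm (k5 _ _ (k6 _ _ c' (k5 _ _ e p c')) q h.symm)
  rcases eq_or_ne p b with rfl | c'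
  exacts [k7 _ _ c.symm (k6 _ _ c e) c.symm, k7 _ _ c e c']

variable (n) in
/-- the Lie algebra -/
def LL : LieSubalgebra ℂ (Matrix (Fin (n + 1)) (Fin (n + 1)) ℂ) :=
  lieSpan ℂ _ (range (fun i : Fin n => single i.castSucc i.succ 1) ∪
    range fun i : Fin n => single i.succ i.castSucc 1)

theorem mem_LL (h : p ≠ q) : single p q 1 ∈ LL n := by
  have : ∀ (d : ℕ) (p q : Fin (n + 1)), q.1 = p.1 + (d + 1) →
      single p q 1 ∈ LL n ∧ single q p 1 ∈ LL n := fun d => by
    induction d using Nat.strong_induction_on with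
    | _ d ih =>
    intro i j e
    obtain _ | d := d
    · obtain ⟨i, rfl⟩ := Fin.exists_castSucc_eq.2 (show i ≠ Fin.last n from fun e' => by
        have := j.2; rw [e', Fin.val_last] at e; omega)
      obtain rfl : j = i.succ := Fin.ext e
      exact ⟨subset_lieSpan (Or.inl ⟨i, rfl⟩), subset_lieSpan (Or.inr ⟨i, rfl⟩)⟩
    · have c : i ≠ j := fun e' => by rw [e'] at e; omega
      have h3 := ih 0 (by omega) i ⟨i.1 + 1, by omega⟩ rfl
      have h4 := ih d (by omega) ⟨i.1 + 1, by omega⟩ j (by simp only; omega)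
      exact ⟨lie_sg c _ ▸ (LL n).lie_mem h3.1 h4.1, lie_sg c.symm _ ▸ (LL n).lie_mem h4.2 h3.2⟩
  rcases lt_or_gt_of_ne h with e | e
  · exact (this (q.1 - p.1 - 1) p q (by have : p.1 < q.1 := e; omega)).1
  · exact (this (p.1 - q.1 - 1) q p (by have : q.1 < p.1 := e; omega)).2

theorem tr_LL (x : LL n) : trace x.1 = 0 := by
  obtain ⟨x, hx⟩ := x
  induction hx using lieSpan_induction with
  | mem u hu =>
    obtain ⟨i, rfl⟩ | ⟨i, rfl⟩ := hu
    exacts [trace_single_eq_of_ne _ _ _ Fin.castSucc_lt_succ.ne,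
      trace_single_eq_of_ne _ _ _ Fin.castSucc_lt_succ.ne']
  | zero => exact trace_zero _ _
  | add u v _ _ hu hv => exact (trace_add _ _).trans (by rw [hu, hv, add_zero])
  | smul t u _ hu => exact (trace_smul _ _).trans (by rw [hu, smul_zero])
  | lie u v _ _ => exact (trace_sub _ _).trans (by rw [trace_mul_comm, sub_self])

/-- the root vectors -/
def el (h : p ≠ q) : LL n := ⟨single p q 1, mem_LL h⟩

/-- the weights -/
def mu (i : Fin n) (a : Fin (n + 1)) : ℤ :=
  (if a = i.castSucc then 1 else 0) - if a = i.succ then 1 else 0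

theorem cs (i : Fin n) : i.castSucc ≠ i.succ := Fin.castSucc_lt_succ.ne

theorem h_val (i : Fin n) : (⁅el (cs i), el (cs i).symm⁆ : LL n).1 = diagonal fun a => (mu i a : ℂ) := by
  show single _ _ 1 * single _ _ 1 - single _ _ 1 * single _ _ 1 = _
  ext a b
  simp only [single_mul_single_same, Matrix.sub_apply, single_apply, diagonal_apply, mu,
    Int.cast_sub, Int.cast_ite, Int.cast_one, Int.cast_zero]
  grind

theorem h_el (i : Fin n) (h : p ≠ q) :
    ⁅(⁅el (cs i), el (cs i).symm⁆ : LL n), el h⁆ = (mu i p - mu i q) • el h := Subtype.ext (by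
  rw [coe_bracket, h_val]
  ext a b
  rw [P011UJ.lie_diag]
  show _ * single p q 1 a b = ((mu i p - mu i q) • single p q (1 : ℂ)) a b
  simp only [single_apply, Matrix.smul_apply]
  split_ifs with c
  · simp [c.1, c.2]
  · simp)

theorem mu_ind {R : Type} [CommRing R] {c : Fin n → R} (h : ∀ a, ∑ i, c i * mu i a = 0) (j : Fin n) :
    c j = 0 := by
  obtain ⟨d, hd⟩ := (Submodule.mem_span_range_iff_exists_fun ℤ).1
    (show (Pi.single j 1 : Fin n → ℤ) ∈ _ from (P011UJ.minA n).sc ▸ Submodule.mem_top)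
  have h2 : ∀ i, ∑ a, (d a : R) * mu i a = if i = j then 1 else 0 := fun i => by
    have := congrArg (Int.cast : ℤ → R) (congrFun hd i)
    simpa [Pi.single_apply, mu] using this
  have : ∑ a, (d a : R) * ∑ i, c i * mu i a = ∑ i, c i * ∑ a, (d a : R) * mu i a := by
    simp only [Finset.mul_sum]
    rw [Finset.sum_comm]
    exact Finset.sum_congr rfl fun _ _ => Finset.sum_congr rfl fun _ _ => by ring
  simpa [h, h2] using this.symm

theorem lin : LinearIndependent ℂ fun i : Fin n => (⁅el (cs i), el (cs i).symm⁆ : LL n) :=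
  Fintype.linearIndependent_iff.2 fun c hc => mu_ind fun a => by
    have := congrFun (congrFun (congrArg Subtype.val hc) a) a
    simpa [Matrix.sum_apply, h_val, -coe_bracket] using this

theorem mu_two (i : Fin n) : mu i i.castSucc - mu i i.succ = 2 := by simp [mu, cs i, (cs i).symm]

variable (n) in
/-- the basis -/
def bas : LieAlgebra.Basis (Fin n)
    (lieSpan ℂ (LL n) (range fun i : Fin n => ⁅el (cs i), el (cs i).symm⁆)) where
  A := of fun i j => mu j i.castSucc - mu j i.succ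
  h i := ⁅el (cs i), el (cs i).symm⁆
  e i := el (cs i)
  f i := el (cs i).symm
  cartan_eq_lieSpan := rfl
  span_ef := by
    refine Eq.trans (congrArg _ (Set.ext fun x => ?_)) lieSpan_lieSpan_coe_preimage
    exact or_congr (exists_congr fun _ => Subtype.ext_iff) (exists_congr fun _ => Subtype.ext_iff)
  linInd := lin
  nondegen := nondegenerate_iff_det_ne_zero.2 fun c => by
    obtain ⟨v, h1, h2⟩ := exists_mulVec_eq_zero_iff.2 c
    have h3 : ∀ i, ∑ a, mu i a * ∑ j, v j * mu j a = 0 := fun i => by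
      have : ∑ j, (mu j i.castSucc - mu j i.succ) * v j = 0 := congrFun h2 i
      have e : ∀ w : Fin (n + 1) → ℤ, ∑ a, mu i a * w a = w i.castSucc - w i.succ := fun w => by
        simp [mu, sub_mul]
      rw [e, ← Finset.sum_sub_distrib, ← this]
      exact Finset.sum_congr rfl fun _ _ => by ring
    have h4 : ∑ a, (∑ j, v j * mu j a) * ∑ j, v j * mu j a = 0 := by
      simp only [Finset.sum_mul _ _ (∑ j, v j * mu j _), mul_assoc]
      rw [Finset.sum_comm]
      simp only [← Finset.mul_sum, h3, mul_zero, Finset.sum_const_zero]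
    exact h1 (funext (mu_ind (R := ℤ) fun a => mul_self_eq_zero.1
      ((Finset.sum_eq_zero_iff_of_nonneg fun _ _ => mul_self_nonneg _).1 h4 a (Finset.mem_univ a))))
  sl2 i := ⟨lin.ne_zero i, rfl, by rw [h_el, mu_two]; exact ofNat_zsmul _ _,
    by rw [h_el, ← neg_sub, mu_two, neg_smul]; exact congrArg _ (ofNat_zsmul _ _)⟩
  lie_h_h i j := Subtype.ext (by
    rw [coe_bracket, h_val, h_val, Ring.lie_def, diagonal_mul_diagonal, diagonal_mul_diagonal]
    simp [mul_comm])
  lie_h_e i j := h_el j _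
  lie_h_f i j := (h_el j _).trans (by rw [of_apply, neg_sub])
  lie_e_f_ne i j c := Subtype.ext (by
    show single _ _ (1 : ℂ) * single _ _ 1 - single _ _ 1 * single _ _ 1 = 0
    rw [single_mul_single_of_ne _ _ _ _ (fun e => c (Fin.succ_injective _ e)),
      single_mul_single_of_ne _ _ _ _ (fun e => c (Fin.castSucc_injective _ e).symm), sub_self])

theorem simple (hn : 0 < n) : LieAlgebra.IsSimple ℂ (LL n) where
  eq_bot_or_eq_top I := or_iff_not_imp_left.2 fun hI => by
    obtain ⟨x, hx, h0⟩ := (LieSubmodule.eq_bot_iff I).not.1 hI |> fun c => by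
      push Not at c; exact c
    have h3 : ∀ {p q} (h : p ≠ q), el h ∈ I := fun h => by
      obtain ⟨y, hy, e⟩ := all_mem (W := I.toSubmodule.map (LL n).toSubmodule.subtype) (by
        rintro p q c _ ⟨y, hy, rfl⟩
        exact ⟨_, I.lie_mem (x := el c) hy, rfl⟩) ⟨x, hx, rfl⟩ (fun c => h0 (Subtype.ext c))
        (tr_LL x) h
      exact (Subtype.ext e : y = el h) ▸ hy
    refine eq_top_iff.2 fun z _ => (lieSpan_le (K := (I : LieSubalgebra ℂ (LL n)))).2 ?_
      ((bas n).span_ef.ge (mem_top z))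
    rintro _ (⟨j, rfl⟩ | ⟨j, rfl⟩)
    exacts [h3 (cs j), h3 (cs j).symm]
  non_abelian c := ((bas n).sl2 ⟨0, hn⟩).h_ne_zero (c.trivial _ _)

/-- the divided powers of the elementary matrices -/
def ee (p q : Fin (n + 1)) (m : ℕ) : Matrix (Fin (n + 1)) (Fin (n + 1)) ℤ :=
  if m = 0 then 1 else if m = 1 then single p q 1 else 0

theorem ct_sg (k : Type) [CommRing k] (p q : Fin (n + 1)) : ct k (single p q 1) = single p q 1 := by
  ext a b
  simp [single_apply]

theorem ee_pow (h : p ≠ q) (m : ℕ) :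
    single p q (1 : ℂ) ^ m = m.factorial • (ee p q m).map (Int.cast : ℤ → ℂ) :=
  ct_sg ℂ p q ▸ P011UJ.pow_eq (single_mul_single_of_ne _ _ _ _ h.symm _) m

theorem dp_ee (h : p ≠ q) : DP (ee p q) :=
  ⟨fun m => ct_inj (k := ℂ) (by
    rw [map_pow, map_nsmul]; exact (congrArg (· ^ m) (ct_sg ℂ p q)).trans (ee_pow h m)),
    pow_card ⟨2, (pow_two _).trans (single_mul_single_of_ne _ _ _ _ h.symm _)⟩⟩

theorem ex_ee {K : Type} [Field K] (h : p ≠ q) (t : K) : ex (ee p q) t = 1 + single p q t :=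
  (P011UJ.ex_two (dp_ee h) t).trans (by
    ext a b
    simp [single_apply])

/-- the datum -/
def dat (hn : 0 < n) : Chev where
  n := n + 1
  r := n
  L := LL n
  simple := simple hn
  H := _
  b := bas n
  φ := (LL n).toSubmodule.subtype
  inj := Subtype.val_injective
  lie _ _ := rfl
  μ := mu
  E i := ee i.castSucc i.succ
  F i := ee i.succ i.castSucc
  h_eq := h_val
  e_pow i := ee_pow (cs i)
  f_pow i := ee_pow (cs i).symm

theorem dat_sc (hn : 0 < n) : SC (dat hn) := (P011UJ.minA n).sc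

theorem dat_grp (hn : 0 < n) (K : Type) [Field K] : (dat hn).grp K = SA K (n + 1) := by
  rw [← P011UJ.genA n hn]
  refine congrArg Subgroup.closure (Set.ext fun g => exists_congr fun i => exists_congr fun t => ?_)
  exact or_congr (Eq.congr_right (P011UJ.ex_two (dp_ee (cs i)) t))
    (Eq.congr_right (P011UJ.ex_two (dp_ee (cs i).symm) t))

end Vale.Agent.P011UX2
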