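import Vale.Agent.P011UX2.Dat
import Vale.Agent.P011UHB.Spec

/-!
Closed subsystems of type `A` give representations of the general linear Lie algebra.
-/

set_option autoImplicit false
set_option linter.all false

namespace Vale.Agent.P011UX2

open Matrix Vale.Agent.P011L Vale.Agent.P183CH Vale.Agent.P183CH.Chev Vale.Agent.P011U
  Vale.Agent.P011UHB Vale.Agent.P011UP

attribute [local instance 100] LieRing.ofAssociativeRing

theorem phi_of {n : ℕ} {L : Type} [LieRing L] [LieAlgebra ℂ L] (Z : Fin n → Fin n → L)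
    (h : ∀ p q r s, ⁅Z p q, Z r s⁆ = (if q = r then Z p s else 0) - if s = p then Z r q else 0) :
    ∃ φ : Matrix (Fin n) (Fin n) ℂ →ₗ[ℂ] L, (∀ u v, φ ⁅u, v⁆ = ⁅φ u, φ v⁆) ∧
      ∀ p q, φ (single p q 1) = Z p q := by
  let φ : Matrix (Fin n) (Fin n) ℂ →ₗ[ℂ] L :=
    liftLinear ℂ fun p q => LinearMap.toSpanSingleton ℂ L (Z p q)
  have h1 : ∀ p q c, φ (single p q c) = c • Z p q := fun p q c => liftLinear_single _ _ _ _ _
  refine ⟨φ, fun u v => ?_, fun p q => (h1 p q 1).trans (one_smul _ _)⟩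
  induction u using Matrix.induction_on' with
  | h_zero => simp
  | h_add u u' a b => rw [add_lie, map_add, map_add, add_lie, a, b]
  | h_std_basis p q c =>
  induction v using Matrix.induction_on' with
  | h_zero => simp
  | h_add u u' a b => rw [lie_add, map_add, map_add, lie_add, a, b]
  | h_std_basis r s d =>
  have k : ∀ p q r s c d, φ (single p q c * single r s d) = (c * d) • if q = r then Z p s else 0 :=
    fun p q r s c d => by
      split_ifs with e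
      · rw [e, single_mul_single_same, h1]
      · rw [single_mul_single_of_ne _ _ _ _ e, map_zero, smul_zero]
  rw [Ring.lie_def, map_sub, k, k, h1, h1, smul_lie, lie_smul, h, smul_smul, smul_sub, mul_comm d]

theorem phi_pair {n : ℕ} {L : Type} [LieRing L] [LieAlgebra ℂ L] (a b : Fin n → L)
    (haa : ∀ i j, ⁅a i, a j⁆ = 0) (hbb : ∀ i j, ⁅b i, b j⁆ = 0)
    (h1 : ∀ i, ⁅⁅a i, b i⁆, a i⁆ = a i + a i ∧ ⁅⁅a i, b i⁆, b i⁆ = -b i - b i)
    (h2 : ∀ i k, i ≠ k → ⁅⁅a i, b i⁆, a k⁆ = a k ∧ ⁅⁅a i, b i⁆, b k⁆ = -b k)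
    (h3 : ∀ i j k, i ≠ j → (j ≠ k → ⁅⁅a i, b j⁆, a k⁆ = 0) ∧ (i ≠ k → ⁅⁅a i, b j⁆, b k⁆ = 0)) :
    ∃ φ : Matrix (Fin (n + 1)) (Fin (n + 1)) ℂ →ₗ[ℂ] L, (∀ u v, φ ⁅u, v⁆ = ⁅φ u, φ v⁆) ∧
      ∀ i, φ (single i.succ 0 1) = a i ∧ φ (single 0 i.succ 1) = b i := by
  have sk : ∀ {x y z : L}, ⁅x, y⁆ = z → ⁅y, x⁆ = -z := fun e => by rw [← e, lie_skew]
  have ha : ∀ i j k, ⁅⁅a i, b j⁆, a k⁆ = (if j = k then a i else 0) + if i = j then a k else 0 := by
    intro i j k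
    rcases eq_or_ne j i with rfl | c <;> rcases eq_or_ne j k with rfl | c'
    · simp [h1]
    · simp [h2 _ _ c', c']
    · rw [lie_lie, haa, sk (rfl : ⁅a j, b j⁆ = _), lie_neg, sk (h2 _ _ c).1]
      simp [c.symm]
    · simp [(h3 _ _ _ c.symm).1 c', c.symm, c']
  have hb : ∀ i j k, ⁅⁅a i, b j⁆, b k⁆ = -(if i = k then b j else 0) - if i = j then b k else 0 := by
    intro i j k
    rcases eq_or_ne i j with rfl | c <;> rcases eq_or_ne i k with rfl | c'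
    · simp [h1]
    · simp [h2 _ _ c', c']
    · rw [lie_lie, hbb, sk (h2 _ _ c).2]
      simp [c]
    · simp [(h3 _ _ _ c).2 c', c, c']
  let c : L := -((1 + n : ℂ)⁻¹ • ∑ i, ⁅a i, b i⁆)
  have hn : ∀ x : L, (1 + n : ℂ)⁻¹ • (x + n • x) = x := fun x => by
    rw [← Nat.cast_smul_eq_nsmul ℂ, ← one_smul ℂ x, smul_smul, ← add_smul, smul_smul, mul_one,
      inv_mul_cancel₀ (add_comm (n : ℂ) 1 ▸ Nat.cast_add_one_ne_zero n)]
  have ca : ∀ k, ⁅c, a k⁆ = -a k := fun k => by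
    rw [neg_lie, smul_lie, sum_lie]
    simp only [ha, if_true, Finset.sum_add_distrib, Finset.sum_ite_eq', Finset.mem_univ,
      Finset.sum_const, Finset.card_univ, Fintype.card_fin, hn]
  have cb : ∀ k, ⁅c, b k⁆ = b k := fun k => by
    rw [neg_lie, smul_lie, sum_lie]
    simp only [hb, if_true, Finset.sum_sub_distrib, Finset.sum_neg_distrib, Finset.sum_ite_eq',
      Finset.mem_univ, Finset.sum_const, Finset.card_univ, Fintype.card_fin]
    rw [← neg_add', smul_neg, neg_neg, hn]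
  have cy : ∀ i j, ⁅c, ⁅a i, b j⁆⁆ = 0 := fun i j => by
    rw [leibniz_lie, ca, cb, neg_lie, neg_add_cancel]
  let Y : Fin n → Fin n → L := fun i j => ⁅a i, b j⁆ + if i = j then c else 0
  have ya : ∀ i j k, ⁅Y i j, a k⁆ = if j = k then a i else 0 := fun i j k => by
    rw [add_lie, ha]
    split_ifs <;> simp [ca]
  have yb : ∀ i j k, ⁅Y i j, b k⁆ = -if i = k then b j else 0 := fun i j k => by
    rw [add_lie, hb]
    split_ifs <;> simp [cb]
  have cY : ∀ i j, ⁅c, Y i j⁆ = 0 := fun i j => by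
    rw [lie_add, cy]
    split_ifs <;> simp
  obtain ⟨φ, h4, h5⟩ := phi_of (L := L)
    (Fin.cons (Fin.cons c b) fun i => Fin.cons (a i) (Y i)) fun p q r s => by
      cases p using Fin.cases <;> cases q using Fin.cases <;> cases r using Fin.cases <;>
        cases s using Fin.cases <;>
        simp only [Fin.cons_zero, Fin.cons_succ, Fin.succ_inj, Fin.succ_ne_zero,
          (Fin.succ_ne_zero _).symm, if_true, if_false, sub_zero, zero_sub, sub_self, lie_self, ca, cb,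
          cY, ya, yb, haa, hbb, sk (ca _), sk (cb _), sk (cY _ _), sk (ya _ _ _), sk (yb _ _ _),
          neg_neg, neg_zero, eq_comm]
      · simp [Y, eq_comm]
      · simp [Y]
      · rename_i i j k l
        rw [lie_add, leibniz_lie, ya, yb, apply_ite (⁅Y _ _, ·⁆), sk (cY _ _)]
        rcases eq_or_ne j k with rfl | c <;> rcases eq_or_ne i l with rfl | c'
        · simp [Y, sub_eq_add_neg]
        · simp [Y, c', c'.symm]
        · simp [Y, c, c.symm]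
        · simp [c, c', c'.symm]
  exact ⟨φ, h4, fun i => ⟨h5 _ _, h5 _ _⟩⟩

variable {D : Chev} {γ δ : D.Q} {E F E' F' : ℕ → D.Mat ℤ}

theorem rt_lie (h : D.RT γ E F) (h' : D.RT γ E' F') : ⁅E' 1, F' 1⁆ = ⁅E 1, F 1⁆ := by
  obtain ⟨ε, a1, -⟩ := h.1.uniq h'.1
  obtain ⟨ε', b1, -⟩ := h.2.1.uniq h'.2.1
  have h1 := h'.2.2
  rw [a1, b1, smul_mul_smul_comm, trace_smul, smul_eq_mul, mul_pos_iff_of_pos_right h.2.2] at h1
  rw [a1, b1]
  rcases Int.units_eq_one_or ε with rfl | rfl <;> rcases Int.units_eq_one_or ε' with rfl | rfl <;>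
    simp at h1 ⊢

/-- the coroots -/
theorem cor : ∀ γ ∈ D.R.Φ, ∃ y : Fin D.r → ℤ, (∀ δ, Cp D.R δ γ (pw (R := D.R) y δ)) ∧
    ⁅D.EE γ 1, D.EE (-γ) 1⁆ = ∑ m, y m • D.hm m := by
  have hR := R_ok D
  refine rt_ind hR (fun i => ⟨Pi.single i 1, fun δ => ?_, ?_⟩) fun i γ hγ ⟨y, h1, h2⟩ =>
    ⟨y - (D.A *ᵥ y) i • Pi.single i 1, fun δ => ?_, ?_⟩
  · simpa [Cp, pw, Pi.single_apply] using hR.pr_B δ i
  · rw [show D.EE (D.R.α i) = _ from EE_e i, show D.EE (-D.R.α i) = _ from EE_f i, ef]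
    simp [Pi.single_apply]
  · have a := h1 (D.R.sE i δ)
    rw [Cp, ← hR.B_inv (RS.sE_mem_W i) γ, ← hR.B_inv (RS.sE_mem_W i) _ γ, hR.sE_sE, hR.sE_eq i δ,
      hR.sE_apply, sub_eq_add_neg, pw_add, pw_neg, pw_smul, pw_α] at a
    rw [Cp, ← a]
    simp [pw, mul_sub, Pi.single_apply, sub_eq_add_neg, mul_add, Finset.sum_add_distrib]
  · refine (rt_lie ((mem_Φ.1 hγ).rt.conj (nice i)) ((mem_Φ.1 hγ).refl i).rt).trans ?_
    rw [Ring.lie_def, ← Ad_mul', ← Ad_mul', ← map_sub, ← Ring.lie_def, h2, map_sum]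
    simp only [map_smul, (Ad_nn i).2, smul_sub, Finset.sum_sub_distrib, smul_smul,
      ← Finset.sum_smul, Pi.sub_apply, sub_smul]
    simp [Pi.single_apply, mulVec, dotProduct, mul_comm]

theorem lie_cor {y : Fin D.r → ℤ} {M : D.Mat ℂ} (h : M ∈ D.Dg ℂ δ) :
    ⁅ct ℂ (∑ m, y m • D.hm m), M⁆ = pw (R := D.R) y δ • M := by
  rw [map_sum, sum_lie, pw, Finset.sum_smul]
  exact Finset.sum_congr rfl fun m _ => by
    rw [map_zsmul, zsmul_lie, lie_of_dg h, smul_smul, mul_comm]; rfl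

theorem cp_eq (h : γ ∈ D.R.Φ) {a b : ℤ} (ha : Cp D.R δ γ a) (hb : Cp D.R δ γ b) : a = b :=
  mul_right_cancel₀ ((R_ok D).B_pos ((R_ok D).sign γ h).1).ne' (ha.trans hb.symm)

variable {l : ℕ} {ρ : Fin l → Fin l → D.R.Q} (hA : As D.R ρ) {p q r s : Fin l}
include hA

theorem as_zero (p : Fin l) : ρ p p = 0 := by simpa using hA.add p p p

theorem as_neg (p q : Fin l) : -ρ p q = ρ q p :=
  neg_eq_of_add_eq_zero_right ((hA.add p q p).trans (as_zero hA p))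

theorem as_van (h : p ≠ q) (h' : r ≠ s) (c : q ≠ r) (c' : s ≠ p) {M N : D.Mat ℂ} (hM : M ∈ D.g)
    (hN : N ∈ D.g) (dM : M ∈ D.Dg ℂ (ρ p q)) (dN : N ∈ D.Dg ℂ (ρ r s)) : ⁅M, N⁆ = 0 := by
  by_contra e
  have k : ∀ a b : ℕ, 0 < a → 0 < b → a • ρ p q + b • ρ r s ∉ D.R.Φ := fun a b ha hb e =>
    (hA.cls _ _ _ _ a b h h' (fun e => c e.1) ha hb e).2.2.elim c c'
  refine k 1 1 one_pos one_pos (mem_Φ.2 ⟨fun e0 => k 2 1 two_pos one_pos ?_, _, lie_mem_g hM hN, e,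
    by simpa using Dg.lie dM dN⟩)
  rw [two_nsmul, add_assoc, ← one_nsmul (ρ p q), e0]
  simpa using hA.mem _ _ h

theorem as_cp (h : p ≠ r) (h' : q ≠ r) (c : p ≠ q) : Cp D.R (ρ p r) (ρ q r) 1 := by
  have hR := R_ok D
  have e := hA.len p q q r c h'
  rw [show ρ p q = ρ p r + -ρ q r by rw [as_neg hA, hA.add], hR.B_add, hR.B_neg, hR.B_comm (ρ p r),
    hR.B_comm (ρ q r) (_ + _), hR.B_add, hR.B_add, hR.B_neg, hR.B_neg, hA.len p r q r h h',
    hR.B_comm (ρ q r) (ρ p r)] at e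
  rw [Cp]
  omega

omit hA in
theorem exists_phi {n : ℕ} {ρ : Fin (n + 1) → Fin (n + 1) → D.R.Q} (hA : As D.R ρ) :
    ∃ φ : Matrix (Fin (n + 1)) (Fin (n + 1)) ℂ →ₗ[ℂ] D.Mat ℂ, (∀ u v, φ ⁅u, v⁆ = ⁅φ u, φ v⁆) ∧
      ∃ e : Fin (n + 1) → Fin (n + 1) → ℤˣ, (∀ p q, e p q = e q p) ∧
        ∀ p q, p ≠ q → φ (single p q 1) = ct ℂ ((e p q : ℤ) • D.EE (ρ p q) 1) := by
  have rh : ∀ {p q}, p ≠ q → D.RH (ρ p q) (D.EE (ρ p q)) := fun h => (mem_Φ.1 (hA.mem _ _ h)).rh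
  have hh : ∀ {p q}, p ≠ q → ∀ {δ M} (m : ℤ), Cp D.R δ (ρ p q) m → (M ∈ D.Dg ℂ δ →
      ⁅⁅ct ℂ (D.EE (ρ p q) 1), ct ℂ (D.EE (ρ q p) 1)⁆, M⁆ = m • M) ∧ (M ∈ D.Dg ℂ (-δ) →
      ⁅⁅ct ℂ (D.EE (ρ p q) 1), ct ℂ (D.EE (ρ q p) 1)⁆, M⁆ = -m • M) := fun {p q} h δ M m c => by
    obtain ⟨y, h1, h2⟩ := cor _ (hA.mem _ _ h)
    rw [← ct_lie, ← as_neg hA p q, h2, cp_eq (hA.mem _ _ h) c (h1 δ), ← pw_neg]
    exact ⟨lie_cor, lie_cor⟩
  have z := fun i : Fin n => i.succ_ne_zero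
  have dg : ∀ {p q}, p ≠ q → ct ℂ (D.EE (ρ p q) 1) ∈ D.Dg ℂ (ρ p q) := fun h => Dg.ct (rh h).dg
  have dg' : ∀ {p q}, p ≠ q → ct ℂ (D.EE (ρ q p) 1) ∈ D.Dg ℂ (-ρ p q) := fun h =>
    (as_neg hA _ _).symm ▸ dg h.symm
  have dy : ∀ i j : Fin n, ⁅ct ℂ (D.EE (ρ i.succ 0) 1), ct ℂ (D.EE (ρ 0 j.succ) 1)⁆ ∈
      D.Dg ℂ (ρ i.succ j.succ) := fun i j => hA.add _ 0 _ ▸ Dg.lie (dg (z i)) (dg (z j).symm)
  have ne : ∀ {i j : Fin n}, i ≠ j → i.succ ≠ j.succ := fun c => (Fin.succ_injective _).ne c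
  obtain ⟨φ, h1, h2⟩ := phi_pair (fun i => ct ℂ (D.EE (ρ i.succ 0) 1))
    (fun i => ct ℂ (D.EE (ρ 0 i.succ) 1))
    (fun i j => as_van hA (z i) (z j) (z j).symm (z i).symm (rh (z i)).g (rh (z j)).g (dg (z i))
      (dg (z j)))
    (fun i j => as_van hA (z i).symm (z j).symm (z i) (z j) (rh (z i).symm).g (rh (z j).symm).g
      (dg (z i).symm) (dg (z j).symm))
    (fun i => ⟨((hh (z i) 2 rfl).1 (dg (z i))).trans (two_zsmul _),
      ((hh (z i) 2 rfl).2 (dg' (z i))).trans (by rw [neg_smul, two_zsmul, neg_add'])⟩)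
    (fun i k c => ⟨((hh (z i) 1 (as_cp hA (z k) (z i) (ne c).symm)).1 (dg (z k))).trans (one_zsmul _),
      ((hh (z i) 1 (as_cp hA (z k) (z i) (ne c).symm)).2 (dg' (z k))).trans (neg_one_zsmul _)⟩)
    fun i j k c => ⟨fun c' => as_van hA (ne c) (z k) (ne c') (z i).symm
      (lie_mem_g (rh (z i)).g (rh (z j).symm).g) (rh (z k)).g (dy i j) (dg (z k)),
      fun c' => as_van hA (ne c) (z k).symm (z j) (ne c').symm
        (lie_mem_g (rh (z i)).g (rh (z j).symm).g) (rh (z k).symm).g (dy i j) (dg (z k).symm)⟩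
  have h3 : ∀ p q, p ≠ q → ∃ a : ℤ, φ (single p q 1) = ct ℂ (a • D.EE (ρ p q) 1) := fun p q c => by
    cases p using Fin.cases <;> cases q using Fin.cases
    · exact absurd rfl c
    · exact ⟨1, by rw [(h2 _).2, one_smul]⟩
    · exact ⟨1, by rw [(h2 _).1, one_smul]⟩
    rename_i i j
    obtain ⟨a, ha⟩ := (rh c).one _ (lie_mem_g (rh (z i)).g (rh (z j).symm).g) (dy i j)
    rw [← ct_lie] at ha
    obtain ⟨b, hb⟩ := (rh c).prim.int ha
    exact ⟨b, by rw [← lie_sg c 0, h1, (h2 _).1, (h2 _).2, ← ct_lie, hb]⟩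
  choose! a h3 using h3
  have h4 : ∀ p q, p ≠ q → a p q * a q p = 1 := fun p q c => by
    have h5 : a p q ≠ 0 := fun e => by
      obtain ⟨i, -⟩ : ∃ i : Fin n, True := by
        cases p using Fin.cases <;> cases q using Fin.cases
        exacts [absurd rfl c, ⟨‹_›, trivial⟩, ⟨‹_›, trivial⟩, ⟨‹_›, trivial⟩]
      have := all_mem (W := LinearMap.ker φ) (fun _ _ _ x hx => by
        rw [LinearMap.mem_ker, h1, LinearMap.mem_ker.1 hx, lie_zero]) (x := single p q 1)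
        (by rw [LinearMap.mem_ker, h3 p q c, e, zero_smul, map_zero])
        (fun e => by simpa using congrFun (congrFun e p) q) (trace_single_eq_of_ne _ _ _ c) (z i)
      exact one_ne_zero ((rh (z i)).prim.eq_zero (c := (1 : ℂ)) (by
        rw [one_smul, ← (h2 i).1]; exact this))
    have h6 := congrArg φ (lie_two c (single q p 1))
    rw [h1, ← lie_skew, h1, map_smul, h3 p q c, h3 q p c.symm, map_zsmul, map_zsmul, lie_zsmul,
      zsmul_lie, zsmul_lie, lie_zsmul, zsmul_lie, (hh c 2 rfl).1 (dg c), single_apply_same] at h6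
    have h7 := (rh c).prim.eq_zero (c := ((2 * a p q * (1 - a p q * a q p) : ℤ) : ℂ)) (by
      rw [← sub_eq_zero] at h6
      rw [← h6]
      simp only [← Int.cast_smul_eq_zsmul ℂ]
      push_cast
      module)
    have := (mul_eq_zero.1 (Int.cast_eq_zero.1 h7)).resolve_left (mul_ne_zero two_ne_zero h5)
    omega
  refine ⟨φ, h1, fun p q => if c : p = q then 1 else Units.mkOfMulEqOne _ _ (h4 p q c),
    fun p q => ?_, fun p q c => by simp only [dif_neg c]; exact h3 p q c⟩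
  rcases eq_or_ne p q with rfl | c
  · rfl
  · simp only [dif_neg c, dif_neg c.symm]
    exact Units.ext (Int.eq_of_mul_eq_one (h4 p q c))

end Vale.Agent.P011UX2
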