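import Vale.Agent.P011UX.Cur
import Mathlib.LinearAlgebra.Eigenspace.Triangularizable
import Mathlib.RingTheory.Nilpotent.Exp
import Mathlib.RingTheory.Ideal.Quotient.Operations
import Mathlib.Algebra.Polynomial.RingDivision

/-!
The algebraic hull of an element of the Lie algebra of a closed matrix group.
-/

set_option autoImplicit false
set_option linter.all false

namespace Vale.Agent.P011UX2

open Matrix Module Module.End Vale.Agent.P011L Vale.Agent.P011UX

section

variable {K A : Type} [Field K] [AddCommGroup A] [Module K A] {D : End K A} {I : Submodule K A}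

theorem mem_back (hI : ∀ p ∈ I, D p ∈ I) {μ ν : K} (c : μ ≠ ν) (n : ℕ) : ∀ q ∈ D.maxGenEigenspace μ,
    ((D - ν • 1) ^ n) q ∈ I → q ∈ I := by
  have h1 : ∀ (j : ℕ) (a : K), ∀ p ∈ I, ((D - a • 1) ^ j) p ∈ I := fun j a p hp => by
    induction j with
    | zero => exact hp
    | succ j ih => rw [pow_succ']; exact sub_mem (hI _ ih) (I.smul_mem a ih)
  induction n with
  | zero => exact fun _ _ h => h
  | succ n ih =>
    intro q hq h
    rw [pow_succ, End.mul_apply] at h
    have h2 := ih _ (sub_mem (mapsTo_maxGenEigenspace_of_comm (Commute.refl D) μ hq)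
      (Submodule.smul_mem _ ν hq)) h
    obtain ⟨m, hm⟩ := (mem_maxGenEigenspace _ _ _).1 hq
    have h3 : ∀ j : ℕ, ((D - μ • 1) ^ j) q - (ν - μ) ^ j • q ∈ I := fun j => by
      induction j with
      | zero => simp
      | succ j ih =>
        have e : (D - μ • 1) q = (D q - ν • q) + (ν - μ) • q := by simp [sub_smul]
        have := add_mem (h1 j μ _ h2) (I.smul_mem (ν - μ) ih)
        rwa [smul_sub, ← map_smul, ← add_sub_assoc, ← map_add, ← e, ← End.mul_apply, ← pow_succ,
          smul_smul, ← pow_succ'] at this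
    have := h3 m
    rwa [hm, zero_sub, neg_mem_iff, I.smul_mem_iff (pow_ne_zero _ (sub_ne_zero.2 c.symm))] at this

theorem comp_mem (hI : ∀ p ∈ I, D p ∈ I) (s : Finset K) : ∀ q : K → A,
    (∀ μ, q μ ∈ D.maxGenEigenspace μ) → ∑ μ ∈ s, q μ ∈ I → ∀ μ ∈ s, q μ ∈ I := by
  classical
  induction s using Finset.induction with
  | empty => simp
  | insert ν s hν ih =>
    intro q hq h
    rw [Finset.sum_insert hν] at h
    obtain ⟨n, hn⟩ := (mem_maxGenEigenspace _ _ _).1 (hq ν)
    have h1 : ((D - ν • 1) ^ n) (q ν + ∑ μ ∈ s, q μ) ∈ I := by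
      clear hn
      induction n with
      | zero => exact h
      | succ j ih => rw [pow_succ']; exact sub_mem (hI _ ih) (I.smul_mem ν ih)
    rw [map_add, hn, zero_add, map_sum] at h1
    have h2 : ∀ μ ∈ s, q μ ∈ I := fun μ e => mem_back hI (ne_of_mem_of_not_mem e hν) n _ (hq μ)
      (ih _ (fun μ => mapsTo_maxGenEigenspace_of_comm (((Commute.refl D).sub_right
        ((Commute.one_right D).smul_right ν)).pow_right n) μ (hq μ)) h1 μ e)
    exact Finset.forall_mem_insert .. |>.2 ⟨(add_mem_cancel_right (sum_mem h2)).1 h, h2⟩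

theorem stab_of (hI : ∀ p ∈ I, D p ∈ I) {ρ : End K A} {c : K → K} {P : K → Submodule K A}
    (h1 : ∀ μ, P μ ≤ D.maxGenEigenspace μ) (h2 : ∀ μ, ∀ p ∈ P μ, ρ p = c μ • p) {p : A}
    (h : p ∈ ⨆ μ, P μ) (hp : p ∈ I) : ρ p ∈ I := by
  obtain ⟨f, hf, rfl⟩ := (Submodule.mem_iSup_iff_exists_finsupp _ _).1 h
  rw [Finsupp.sum, map_sum]
  exact sum_mem fun μ e => h2 μ _ (hf μ) ▸ I.smul_mem _
    (comp_mem hI _ f (fun μ => h1 μ (hf μ)) hp μ e)

end

theorem gen_mul {K A : Type} [Field K] [CommRing A] [Algebra K A] {D : End K A}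
    (hD : ∀ p q, D (p * q) = D p * q + p * D q) {μ ν : K} {p q : A} (hp : p ∈ D.maxGenEigenspace μ)
    (hq : q ∈ D.maxGenEigenspace ν) : p * q ∈ D.maxGenEigenspace (μ + ν) := by
  obtain ⟨n, hn⟩ := (mem_maxGenEigenspace _ _ _).1 hp
  obtain ⟨m, hm⟩ := (mem_maxGenEigenspace _ _ _).1 hq
  clear hp hq
  induction n generalizing p q m with
  | zero => simp [show p = 0 from hn]
  | succ n ih =>
    induction m generalizing q with
    | zero => simp [show q = 0 from hm]
    | succ m ih' =>
      obtain ⟨j, hj⟩ := (mem_maxGenEigenspace _ _ _).1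
        (add_mem (ih (p := (D - μ • 1) p) (by rwa [pow_succ] at hn) (m + 1) hm)
          (ih' (q := (D - ν • 1) q) (by rwa [pow_succ] at hm)))
      refine (mem_maxGenEigenspace _ _ _).2 ⟨j + 1, Eq.trans ?_ hj⟩
      rw [pow_succ, End.mul_apply]
      congr 1
      simp only [LinearMap.sub_apply, LinearMap.smul_apply, End.one_apply, hD]
      simp only [Algebra.smul_def, map_add]
      ring

variable {K J : Type} [Field K] [Fintype J] [DecidableEq J] {G : Subgroup (GL J K)}
  {X Y : Matrix J J K}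

variable (K J) in
/-- the generic matrix -/
noncomputable def gm : Matrix J J (MvPolynomial (J × J) K) := of fun a b => MvPolynomial.X (a, b)

/-- the generic matrix times a constant matrix -/
noncomputable def gx (N : Matrix J J K) : Matrix J J (MvPolynomial (J × J) K) :=
  gm K J * N.map MvPolynomial.C

theorem gm_map (M N : Matrix J J K) : (gx N).map (ev M) = M * N := by
  rw [gx, mm]
  congr 1
  exacts [Matrix.ext fun a b => MvPolynomial.aeval_X _ _, Matrix.ext fun a b => MvPolynomial.aeval_C _ _]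

/-- the left invariant derivation -/
noncomputable def dr (X : Matrix J J K) :
    Derivation K (MvPolynomial (J × J) K) (MvPolynomial (J × J) K) :=
  MvPolynomial.mkDerivation K fun e => gx X e.1 e.2

theorem dr_X (X : Matrix J J K) (e : J × J) : dr X (MvPolynomial.X e) = gx X e.1 e.2 :=
  MvPolynomial.mkDerivation_X _ _ _

theorem ev_dr (X M : Matrix J J K) (p : MvPolynomial (J × J) K) :
    ev M (dr X p) = dv p M (M * X) := by
  induction p using MvPolynomial.induction_on with
  | C a => simp [dv]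
  | add p q a b => simp only [map_add, a, b, dv, add_mul, Finset.sum_add_distrib]
  | mul_X p e a =>
    have h : ∑ b : J × J, ev M (MvPolynomial.pderiv b (MvPolynomial.X e : MvPolynomial _ K)) *
        (M * X) b.1 b.2 = ev M (gx X e.1 e.2) := by
      rw [Finset.sum_eq_single e (fun b _ h => by
        rw [MvPolynomial.pderiv_X_of_ne h.symm, map_zero, zero_mul]) (by simp),
        MvPolynomial.pderiv_X_self, map_one, one_mul, ← gm_map, map_apply]
    rw [Derivation.leibniz, smul_eq_mul, smul_eq_mul, map_add, map_mul, map_mul, a, dr_X, ← h, dv, dv,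
      Finset.mul_sum, Finset.mul_sum, ← Finset.sum_add_distrib]
    refine Finset.sum_congr rfl fun b _ => ?_
    rw [MvPolynomial.pderiv_mul, map_add, map_mul, map_mul]
    ring

/-- the linear forms -/
noncomputable def lf (a : J) : (J → K) →ₗ[K] MvPolynomial (J × J) K :=
  Fintype.linearCombination K fun b => MvPolynomial.X (a, b)

theorem lf_eq (a : J) (v : J → K) : lf a v = ∑ b, v b • MvPolynomial.X (a, b) :=
  Fintype.linearCombination_apply _ _ _

theorem lf_mul (a : J) (M : Matrix J J K) (v : J → K) : lf a (M *ᵥ v) = ∑ b, v b • gx M a b := by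
  simp only [lf_eq, mulVec, dotProduct, Matrix.mul_apply, gx, gm, of_apply,
    map_apply, Finset.sum_smul, Finset.mul_sum, Finset.sum_mul, MvPolynomial.smul_eq_C_mul, map_mul,
    map_sum]
  rw [Finset.sum_comm]
  exact Finset.sum_congr rfl fun _ _ => Finset.sum_congr rfl fun _ _ => by ring

theorem dr_lf (a : J) (v : J → K) : dr X (lf a v) = lf a (X *ᵥ v) := by
  rw [lf_mul, lf_eq, map_sum]
  exact Finset.sum_congr rfl fun b _ => by rw [Derivation.map_smul, dr_X]

/-- the ideal of the group -/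
def vn (G : Subgroup (GL J K)) : Submodule K (MvPolynomial (J × J) K) where
  carrier := {p | Van K G p}
  add_mem' := fun a b g e => by rw [map_add, a g e, b g e, add_zero]
  zero_mem' := fun g e => map_zero _
  smul_mem' := fun c p a g e => by rw [map_smul, a g e, smul_zero]

/-- `Y` acts by `c μ` on the generalised eigenspace of `X` for the eigenvalue `μ` -/
def Op (X : Matrix J J K) (c : K → K) (Y : Matrix J J K) : Prop :=
  ∀ μ, ∀ v ∈ maxGenEigenspace (toLin' X) μ, Y *ᵥ v = c μ • v

/-- `Λ` contains the eigenvalues -/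
def Ev (X : Matrix J J K) (Λ : AddSubmonoid K) : Prop :=
  ∀ μ, ∀ v ∈ maxGenEigenspace (toLin' X) μ, v ≠ 0 → μ ∈ Λ

theorem hull0 [IsAlgClosed K] (hX : X ∈ P011UX.LE G) {Λ : AddSubmonoid K} (hΛ : Ev X Λ) {c : K → K}
    (hY : Op X c Y) (ρ : End K (MvPolynomial (J × J) K)) (h1 : ρ 1 = c 0 • 1)
    (h2 : ∀ μ ∈ Λ, ∀ ν ∈ Λ, ∀ p q, ρ p = c μ • p → ρ q = c ν • q → ρ (p * q) = c (μ + ν) • (p * q))
    (h3 : ∀ a v, ρ (lf a v) = lf a (Y *ᵥ v)) {p} (hp : Van K G p) : Van K G (ρ p) := by
  let P : K → Submodule K (MvPolynomial (J × J) K) := fun μ =>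
    { carrier := {p | p ∈ maxGenEigenspace (dr X).toLinearMap μ ∧ ρ p = c μ • p ∧ (μ ∈ Λ ∨ p = 0)}
      add_mem' := fun a b => ⟨add_mem a.1 b.1, by rw [map_add, a.2.1, b.2.1, smul_add],
        a.2.2.elim Or.inl fun e => b.2.2.imp_right fun e' => by rw [e, e', add_zero]⟩
      zero_mem' := ⟨zero_mem _, by simp, Or.inr rfl⟩
      smul_mem' := fun t p a => ⟨Submodule.smul_mem _ t a.1, by rw [map_smul, a.2.1, smul_comm],
        a.2.2.imp_right fun e => by rw [e, smul_zero]⟩ }
  have k1 : ∀ p ∈ ⨆ μ, P μ, ∀ q ∈ ⨆ μ, P μ, p * q ∈ ⨆ μ, P μ := fun p hp q hq => by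
    refine Submodule.iSup_induction P (motive := fun p => p * q ∈ ⨆ μ, P μ) hp (fun μ p hp => ?_)
      (by simp) fun _ _ a b => by rw [add_mul]; exact add_mem a b
    refine Submodule.iSup_induction P (motive := fun q => p * q ∈ ⨆ μ, P μ) hq (fun ν q hq => ?_)
      (by simp) fun _ _ a b => by rw [mul_add]; exact add_mem a b
    obtain a | rfl := hp.2.2
    · obtain b | rfl := hq.2.2
      · exact Submodule.mem_iSup_of_mem (μ + ν) ⟨gen_mul (fun p q => by
          simp [mul_comm, add_comm]) hp.1 hq.1, h2 _ a _ b _ _ hp.2.1 hq.2.1, Or.inl (add_mem a b)⟩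
      · simp
    · simp
  have k2 : ∀ a v, lf a v ∈ ⨆ μ, P μ := fun a v => by
    refine Submodule.iSup_induction _ (motive := fun v => lf a v ∈ ⨆ μ, P μ)
      ((iSup_maxGenEigenspace_eq_top (toLin' X)).ge (Submodule.mem_top (x := v))) (fun μ v hv => ?_)
      (by simp) fun _ _ a b => by rw [map_add]; exact add_mem a b
    refine Submodule.mem_iSup_of_mem μ ⟨?_, by rw [h3, hY μ v hv, map_smul],
      (em (v = 0)).symm.imp (hΛ μ v hv) fun e => by rw [e, map_zero]⟩
    obtain ⟨n, hn⟩ := (mem_maxGenEigenspace _ _ _).1 hv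
    refine (mem_maxGenEigenspace _ _ _).2 ⟨n, Eq.trans ?_ ((congrArg (lf a) hn).trans (map_zero _))⟩
    clear hn
    induction n with
    | zero => rfl
    | succ n ih => simp [pow_succ', ih, dr_lf]
  refine stab_of (I := vn G) (D := (dr X).toLinearMap) (P := P)
    (fun p hp g hg => (ev_dr X g.1 p).trans (hX p hp g hg)) (fun μ p h => h.1) (fun μ p h => h.2.1)
    ?_ hp
  clear hp
  induction p using MvPolynomial.induction_on with
  | C a =>
    rw [MvPolynomial.C_eq_smul_one]
    exact Submodule.smul_mem _ _ (Submodule.mem_iSup_of_mem 0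
      ⟨(mem_maxGenEigenspace _ _ _).2 ⟨1, by simp⟩, h1, Or.inl (zero_mem _)⟩)
  | add p q a b => exact add_mem a b
  | mul_X p e a => exact k1 _ a _ (by simpa [lf] using k2 e.1 (Pi.single e.2 1))

/-- **The torus part of the hull.** -/
theorem hull_mul [IsAlgClosed K] (hG : Cl G) (hX : X ∈ P011UX.LE G) {Λ : AddSubmonoid K} (hΛ : Ev X Λ)
    {c : K → K} (h0 : c 0 = 1) (hc : ∀ μ ∈ Λ, ∀ ν ∈ Λ, c (μ + ν) = c μ * c ν) {s : GL J K}
    (hs : Op X c s.1) : s ∈ G := hG s fun p hp => by
  have := hull0 hX hΛ hs (ev (gx s.1)).toLinearMap (by simp [h0])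
    (fun μ a ν b p q e e' => by
      rw [AlgHom.toLinearMap_apply] at e e' ⊢
      rw [map_mul, e, e', hc μ a ν b, smul_mul_smul_comm])
    (fun a v => by
      rw [lf_mul, lf_eq, map_sum]
      exact Finset.sum_congr rfl fun b _ => by
        rw [map_smul, AlgHom.toLinearMap_apply, MvPolynomial.aeval_X]) hp 1 (one_mem _)
  rwa [AlgHom.toLinearMap_apply, map_ev, gm_map, Units.val_one, one_mul] at this

/-- **The replicas.** -/
theorem hull_add [IsAlgClosed K] (hX : X ∈ P011UX.LE G) {Λ : AddSubmonoid K} (hΛ : Ev X Λ) {c : K → K}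
    (h0 : c 0 = 0) (hc : ∀ μ ∈ Λ, ∀ ν ∈ Λ, c (μ + ν) = c μ + c ν) (hY : Op X c Y) : Y ∈ P011UX.LE G :=
  fun p hp g hg => (ev_dr Y g.1 p).symm.trans (hull0 hX hΛ hY (dr Y).toLinearMap (by simp [h0])
    (fun μ a ν b p q e e' => by
      rw [Derivation.coeFn_coe] at e e' ⊢
      rw [Derivation.leibniz, e, e', hc μ a ν b]
      simp only [smul_eq_mul, Algebra.smul_def, map_add]
      ring) (fun a v => dr_lf a v) hp g hg)

theorem Op.uniq [IsAlgClosed K] {c : K → K} {Y' : Matrix J J K} (h : Op X c Y) (h' : Op X c Y') :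
    Y = Y' := toLin'.injective (LinearMap.ext fun v =>
  Submodule.iSup_induction _ (motive := fun v => toLin' Y v = toLin' Y' v)
    ((iSup_maxGenEigenspace_eq_top (toLin' X)).ge (Submodule.mem_top (x := v)))
    (fun μ v hv => (h μ v hv).trans (h' μ v hv).symm) (by simp)
    fun _ _ a b => by rw [map_add, map_add, a, b])

end Vale.Agent.P011UX2
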